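import Crest.Agent.R152.Iface
import Crest.Agent.R152.P
import Crest.Agent.R152.LA

/-! Row 152, block F (Theorem L): definitions and sub-statements. -/

set_option autoImplicit false
open Matrix Filter

namespace Crest.Agent.R152

open Classical in
/-- canonical choice of the conditioning coordinates -/
noncomputable def Isel {n t : ℕ} (Z : Fin t → Fin n → ℤ) (J : Finset (Fin n)) (s : ℕ)
    (B : Matrix (Fin n) (Fin n) ℤ) : Finset (Fin n) :=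
  if h : ∃ I : Finset (Fin n), I.card ≤ s ∧ CondI Z J B I then h.choose else ∅

theorem Isel_card {n t : ℕ} (Z : Fin t → Fin n → ℤ) (J : Finset (Fin n)) (s : ℕ)
    (B : Matrix (Fin n) (Fin n) ℤ) : (Isel Z J s B).card ≤ s := by
  unfold Isel
  split_ifs with h
  · exact h.choose_spec.1
  · simp

theorem Isel_cond {n t : ℕ} {Z : Fin t → Fin n → ℤ} {J : Finset (Fin n)} {s : ℕ}
    {B : Matrix (Fin n) (Fin n) ℤ} (h : ∃ I : Finset (Fin n), I.card ≤ s ∧ CondI Z J B I) :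
    CondI Z J B (Isel Z J s B) := by
  unfold Isel
  rw [dif_pos h]
  exact h.choose_spec.2

theorem CondI_congr {n t : ℕ} (Z : Fin t → Fin n → ℤ) (J : Finset (Fin n))
    {B B' : Matrix (Fin n) (Fin n) ℤ} (h : ∀ i, i ∉ J → B i = B' i) :
    CondI Z J B = CondI Z J B' := by
  funext I
  unfold CondI
  apply propext
  constructor
  · intro H w α h1 h2 h3
    exact H w α h1 (fun i hi => by rw [h i hi]; exact h2 i hi) h3
  · intro H w α h1 h2 h3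
    exact H w α h1 (fun i hi => by rw [← h i hi]; exact h2 i hi) h3

theorem Isel_congr {n t : ℕ} (Z : Fin t → Fin n → ℤ) (J : Finset (Fin n)) (s : ℕ)
    {B B' : Matrix (Fin n) (Fin n) ℤ} (h : ∀ i, i ∉ J → B i = B' i) :
    Isel Z J s B = Isel Z J s B' := by
  unfold Isel
  rw [CondI_congr Z J h]

/-- the event bounded by decoding -/
def EvF (p : ℝ) {n t : ℕ} (Z : Fin t → Fin n → ℤ) (J : Finset (Fin n)) (s k : ℕ) (τ τ' b : ℝ) :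
    Set (Om n) :=
  {ω | (∃ I : Finset (Fin n), I.card ≤ s ∧ CondI Z J (Mx ω) I) ∧
    ∃ g : Fin k → Fin n → T1,
      (∀ j, g j ∈ Td (Mx ω) ∧ (∀ a, ‖pr (Z a) (g j)‖ ≤ τ) ∧
        ∀ l ∈ Isel Z J s (Mx ω), ‖g j l‖ ≤ τ) ∧
      ∀ y0 : Fin n → Bool,
        Pr p {y : Fin n → Bool | ∀ j, ‖pr (rs J (sv y - sv y0)) (g j)‖ ≤ τ'} ≤ b}

/-- the block of coordinates with label `a` -/
def blkJ {n b : ℕ} (blk : Fin n → Fin b) (a : Fin b) : Finset (Fin n) :=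
  Finset.univ.filter fun i => blk i = a

/-- deterministic core: a good block and few test points -/
def StF1 : Prop :=
  ∀ (p θ c : ℝ) (n t b s k N M : ℕ) (ω : Om n) (Z : Fin t → Fin n → ℤ) (blk : Fin n → Fin b)
    (K : AddSubgroup (Fin n → T1)) (G1 : Finset (Fin n → T1)) (τ0 τ' Rr : ℝ)
    (I : Fin b → Finset (Fin n)),
    0 < p → p < 1 → 1 ≤ n → 1 ≤ N → 1 ≤ M → 0 < τ0 → 0 ≤ τ' →
    (∀ G : Finset (Fin n → T1), (∀ g ∈ G, g ∈ Td (Mx ω)) → Real.exp (c * Lg n) ≤ G.card →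
      ∀ (A : Set (Fin n → Bool)) (y0 : Fin n → Bool),
      (∀ x ∈ A, ∀ g ∈ G, ‖pr (sv x - sv y0) g‖ ≤ 1 / (12 * n)) → Pr p A ≤ Real.exp (-θ * n)) →
    (Mx ω).det ≠ 0 → K ≤ Td (Mx ω) → Nat.card K < 2 ^ M → (∀ u ∈ G1, u ∈ K) →
    (∀ u ∈ G1, ∀ u' ∈ G1, ∀ a, ‖pr (Z a) (u - u')‖ ≤ τ0 / (M * (N : ℝ) ^ 3)) →
    (∀ D : ℕ, 1 ≤ D → D ≤ N ^ b →
      (({u | u ∈ Td (Mx ω) ∧ D • u = 0} : Set (Fin n → T1)).ncard : ℝ) ≤ Rr) →
    Real.exp (c * Lg n) * Rr * (M * (N : ℝ) ^ 3 / τ0 + 1) ^ (b * s) ≤ G1.card →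
    4 * (N : ℝ) ^ 5 * τ' < 1 → 24 * n * b * (N : ℝ) ^ (b + 1) * τ' ≤ 1 →
    4 ^ n * (2 / (N : ℝ)) ^ k ≤ 1 → (∀ a, (I a).card ≤ s) →
    ∃ a : Fin b, ∃ g : Fin k → Fin n → T1,
      (∀ j, g j ∈ Td (Mx ω) ∧ (∀ a', ‖pr (Z a') (g j)‖ ≤ 2 * τ0) ∧
        ∀ l ∈ I a, ‖g j l‖ ≤ 2 * τ0) ∧
      ∀ y0 : Fin n → Bool,
        Pr p {y : Fin n → Bool | ∀ j, ‖pr (rs (blkJ blk a) (sv y - sv y0)) (g j)‖ ≤ τ'} ≤
          N * Real.exp (-θ * (blkJ blk a).card)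

/-- decoding -/
def StF2 : Prop :=
  ∀ (p : ℝ) (n t : ℕ) (Z : Fin t → Fin n → ℤ) (J J' : Finset (Fin n)) (s k : ℕ) (τ τ' b : ℝ),
    0 < p → p < 1 → 1 ≤ n → GoodZ Z → J' ⊆ J → 0 ≤ τ → 100 * (n : ℝ) ^ 5 * τ ≤ τ' → 0 ≤ b →
    Pr p (EvF p Z J s k τ τ' b) ≤ (4 * (n : ℝ)) ^ (n * k) * (b / pn p ^ J'.card) ^ J'.card

end Crest.Agent.R152
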