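import Crest.Agent.R152.F.Defs

/-! Row 152, F2: decoding (notes152/H33.md 3F). -/

set_option autoImplicit false
open Matrix Filter

namespace Crest.Agent.R152

/-- lift to `[0,1)` -/
noncomputable def lf (u : T1) : ℝ := (AddCircle.equivIco (1 : ℝ) 0 u : ℝ)

theorem lf_mem (u : T1) : 0 ≤ lf u ∧ lf u < 1 := by
  have h := (AddCircle.equivIco (1 : ℝ) 0 u).2
  simpa [lf] using h

theorem coe_lf (u : T1) : ((lf u : ℝ) : T1) = u := by
  unfold lf
  exact (AddCircle.equivIco (1 : ℝ) 0).symm_apply_apply u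

/-- cell of mesh `1/m` -/
noncomputable def cell (m : ℕ) (hm : 0 < m) (u : T1) : Fin m :=
  ⟨⌊m * lf u⌋₊, by
    have h := lf_mem u
    have hm' : (0 : ℝ) < m := by exact_mod_cast hm
    rw [Nat.floor_lt (by nlinarith [h.1])]
    nlinarith [h.2]⟩

theorem cell_close {m : ℕ} (hm : 0 < m) {u v : T1} (h : cell m hm u = cell m hm v) :
    |lf u - lf v| ≤ 1 / m := by
  have hm' : (0 : ℝ) < m := by exact_mod_cast hm
  have h1 : ⌊m * lf u⌋₊ = ⌊m * lf v⌋₊ := congrArg Fin.val h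
  have hu := lf_mem u
  have hv := lf_mem v
  have a1 := Nat.floor_le (a := m * lf u) (by nlinarith [hu.1])
  have a2 := Nat.lt_floor_add_one (m * lf u)
  have b1 := Nat.floor_le (a := m * lf v) (by nlinarith [hv.1])
  have b2 := Nat.lt_floor_add_one (m * lf v)
  rw [h1] at a1 a2
  rw [abs_le, le_div_iff₀ hm', neg_le, le_div_iff₀ hm']
  constructor <;> nlinarith

theorem pr_coe {ι : Type} [Fintype ι] (z : ι → ℤ) (w : ι → ℝ) :
    pr z (fun i => ((w i : ℝ) : T1)) = ((rc z ⬝ᵥ w : ℝ) : T1) := by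
  unfold pr dotProduct rc
  rw [QuotientAddGroup.mk_sum]
  refine Finset.sum_congr rfl fun i _ => ?_
  rw [← AddCircle.coe_zsmul]
  simp

theorem norm_coe_le (x : ℝ) : ‖((x : ℝ) : T1)‖ ≤ |x| := by
  simpa using QuotientAddGroup.norm_mk_le_norm (S := AddSubgroup.zmultiples (1 : ℝ)) (m := x)

theorem norm_coe_eq {x : ℝ} (h : |x| ≤ 1 / 2) : ‖((x : ℝ) : T1)‖ = |x| := by
  have := (AddCircle.norm_coe_eq_abs_iff (p := (1 : ℝ)) one_ne_zero (x := x)).2 (by simpa using h)
  exact this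

theorem abs_dot_le {n : ℕ} (z : Fin n → ℤ) (w : Fin n → ℝ) {a m : ℝ} (hz : ∀ l, |(z l : ℝ)| ≤ a)
    (hw : ∀ l, |w l| ≤ m) : |rc z ⬝ᵥ w| ≤ n * (a * m) := by
  unfold dotProduct rc
  calc |∑ i, (z i : ℝ) * w i| ≤ ∑ i, |(z i : ℝ) * w i| := Finset.abs_sum_le_sum_abs _ _
    _ ≤ ∑ _i : Fin n, a * m := Finset.sum_le_sum fun i _ => by
        rw [abs_mul]
        exact mul_le_mul (hz i) (hw i) (abs_nonneg _) ((abs_nonneg _).trans (hz i))
    _ = n * (a * m) := by simp

theorem abs_sg (b : Bool) : |sg b| = 1 := by cases b <;> simp [sg]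

theorem abs_Mx {n : ℕ} (ω : Om n) (i j : Fin n) : |((Mx ω i j : ℤ) : ℝ)| ≤ 1 := by
  have : |Mx ω i j| = 1 := abs_sg _
  exact_mod_cast this.le

/-- the property a decoded point has -/
def DecP {n t : ℕ} (hn : 0 < 4 * n) (Z : Fin t → Fin n → ℤ) (J : Finset (Fin n)) (s : ℕ) (τ : ℝ)
    (σ : Fin n → Fin (4 * n)) (B : Matrix (Fin n) (Fin n) ℤ) (u : Fin n → T1) : Prop :=
  (∀ l, cell (4 * n) hn (u l) = σ l) ∧ (∀ i, i ∉ J → pr (B i) u = 0) ∧
    (∀ a, ‖pr (Z a) u‖ ≤ τ) ∧ ∀ l ∈ Isel Z J s B, ‖u l‖ ≤ τ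

open Classical in
noncomputable def dec {n t : ℕ} (hn : 0 < 4 * n) (Z : Fin t → Fin n → ℤ) (J : Finset (Fin n))
    (s : ℕ) (τ : ℝ) (σ : Fin n → Fin (4 * n)) (B : Matrix (Fin n) (Fin n) ℤ) : Fin n → T1 :=
  if h : ∃ u, DecP hn Z J s τ σ B u then h.choose else 0

theorem dec_spec {n t : ℕ} {hn : 0 < 4 * n} {Z : Fin t → Fin n → ℤ} {J : Finset (Fin n)}
    {s : ℕ} {τ : ℝ} {σ : Fin n → Fin (4 * n)} {B : Matrix (Fin n) (Fin n) ℤ} {u : Fin n → T1}
    (h : DecP hn Z J s τ σ B u) : DecP hn Z J s τ σ B (dec hn Z J s τ σ B) := by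
  have h' : ∃ u, DecP hn Z J s τ σ B u := ⟨u, h⟩
  unfold dec
  rw [dif_pos h']
  exact h'.choose_spec

theorem dec_congr {n t : ℕ} (hn : 0 < 4 * n) (Z : Fin t → Fin n → ℤ) (J : Finset (Fin n))
    (s : ℕ) (τ : ℝ) (σ : Fin n → Fin (4 * n)) {B B' : Matrix (Fin n) (Fin n) ℤ}
    (h : ∀ i, i ∉ J → B i = B' i) : dec hn Z J s τ σ B = dec hn Z J s τ σ B' := by
  have : DecP hn Z J s τ σ B = DecP hn Z J s τ σ B' := by
    funext u
    unfold DecP
    rw [Isel_congr Z J s h]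
    apply propext
    constructor
    · rintro ⟨h1, h2, h3⟩
      exact ⟨h1, fun i hi => by rw [← h i hi]; exact h2 i hi, h3⟩
    · rintro ⟨h1, h2, h3⟩
      exact ⟨h1, fun i hi => by rw [h i hi]; exact h2 i hi, h3⟩
  unfold dec
  rw [this]

/-- two decodings are close -/
theorem dec_close {n t : ℕ} {hn : 0 < 4 * n} {Z : Fin t → Fin n → ℤ} (hZ : GoodZ Z)
    {J : Finset (Fin n)} {s : ℕ} {τ : ℝ} (hτ : 0 ≤ τ) {σ : Fin n → Fin (4 * n)} {ω : Om n}
    (hc : CondI Z J (Mx ω) (Isel Z J s (Mx ω))) {u v : Fin n → T1}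
    (hu : DecP hn Z J s τ σ (Mx ω) u) (hv : DecP hn Z J s τ σ (Mx ω) v) :
    ∃ w : Fin n → ℝ, u - v = (fun i => ((w i : ℝ) : T1)) ∧ ∀ l, |w l| ≤ 24 * (n : ℝ) ^ 4 * τ := by
  have hn0 : 0 < n := by omega
  have hnR : (0 : ℝ) < n := by exact_mod_cast hn0
  set w : Fin n → ℝ := fun i => lf (u i) - lf (v i) with hw
  have huv : u - v = fun i => ((w i : ℝ) : T1) := by
    funext i
    simp only [hw, Pi.sub_apply, AddCircle.coe_sub, coe_lf]
  have hw1 : ∀ l, |w l| ≤ 1 / (4 * n) := fun l => by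
    have := cell_close hn ((hu.1 l).trans (hv.1 l).symm)
    simpa [hw] using this
  have hdot : ∀ z : Fin n → ℤ, (∀ l, |(z l : ℝ)| ≤ 1) → |rc z ⬝ᵥ w| = ‖pr z u - pr z v‖ := by
    intro z hz
    have h1 := abs_dot_le z w hz hw1
    have h2 : (n : ℝ) * (1 * (1 / (4 * n))) = 1 / 4 := by field_simp
    rw [← pr_sub_right, huv, pr_coe, norm_coe_eq (by linarith)]
  refine ⟨w, huv, fun l => ?_⟩
  have := hc w (2 * τ) (fun a => ?_) (fun i hi => ?_) (fun l hl => ?_) l
  · linarith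
  · rw [hdot (Z a) (fun l => by exact_mod_cast hZ.1 a l)]
    have := norm_sub_le (pr (Z a) u) (pr (Z a) v)
    linarith [hu.2.2.1 a, hv.2.2.1 a]
  · rw [hdot _ (fun l => abs_Mx ω i l), hu.2.1 i hi, hv.2.1 i hi]
    simp
    exact hτ
  · have h1 : |w l| ≤ 1 / 2 := by
      refine (hw1 l).trans ?_
      have : (1 : ℝ) ≤ n := by exact_mod_cast hn0
      rw [div_le_div_iff₀ (by positivity) (by norm_num)]
      linarith
    rw [← norm_coe_eq h1]
    have h2 : ((w l : ℝ) : T1) = u l - v l := (congrFun huv l).symm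
    rw [h2]
    have := norm_sub_le (u l) (v l)
    linarith [hu.2.2.2 l hl, hv.2.2.2 l hl]

/-- admissible rows -/
def Arow {n k : ℕ} (J : Finset (Fin n)) (û : Fin k → Fin n → T1) (x : Fin n → ℤ) (τ3 : ℝ) :
    Set (Fin n → Bool) :=
  {y | ∀ j, ‖pr (rs J (sv y)) (û j) + pr (rs Jᶜ x) (û j)‖ ≤ τ3}

theorem rs_add_compl {n : ℕ} (J : Finset (Fin n)) (x : Fin n → ℤ) : rs J x + rs Jᶜ x = x := by
  funext i
  by_cases h : i ∈ J <;> simp [rs, h]

theorem rs_sub {n : ℕ} (J : Finset (Fin n)) (x y : Fin n → ℤ) : rs J (x - y) = rs J x - rs J y := by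
  funext i
  by_cases h : i ∈ J <;> simp [rs, h]

theorem stF2 : StF2 := by
  intro p n t Z J J' s k τ τ' b hp0 hp1 hn hZ hJ hτ hτ' hb
  classical
  have hn4 : 0 < 4 * n := by omega
  have hnR : (1 : ℝ) ≤ n := by exact_mod_cast hn
  set C : Finset (Fin n) := J \ J' with hC
  set r : Fin J'.card ↪ Fin n := (J'.orderEmbOfFin rfl).toEmbedding with hr
  have hrJ : ∀ j, r j ∈ J' := fun j => J'.orderEmbOfFin_mem rfl j
  have hrC : ∀ j, r j ∉ C := fun j h => (Finset.mem_sdiff.1 h).2 (hrJ j)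
  set τ3 : ℝ := 24 * (n : ℝ) ^ 5 * τ with hτ3
  let û : (Fin k → Fin n → Fin (4 * n)) → Om n → Fin k → Fin n → T1 :=
    fun σ ω j => dec hn4 Z J s τ (σ j) (Mx ω)
  let x0 : Om n → Fin J'.card → Fin n → Bool := fun ω j c => if c ∈ C then true else ω s(r j, c)
  let F : (Fin k → Fin n → Fin (4 * n)) → Fin J'.card → Om n → Set (C → Bool) := fun σ j ω =>
    {y | (fun c => if h : c ∈ C then y ⟨c, h⟩ else x0 ω j c) ∈
      Arow J (û σ ω) (Mx ω (r j)) τ3}
  have hpn := pn_pos hp0 hp1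
  set b' : ℝ := b / pn p ^ J'.card with hb'
  have hb'0 : 0 ≤ b' := div_nonneg hb (pow_nonneg hpn.le _)
  let E : (Fin k → Fin n → Fin (4 * n)) → Set (Om n) := fun σ =>
    {ω | ω ∈ (Set.univ : Set (Om n)) ∧
      ∀ j, Pr p (F σ j ω) ≤ b' ∧ (fun c : C => ω s(r j, c)) ∈ F σ j ω}
  have hE : ∀ σ, Pr p (E σ) ≤ b' ^ J'.card := by
    intro σ
    have := fresh hp0.le hp1.le r C hrC Set.univ (F σ) hb'0 (fun _ _ _ _ => Set.mem_univ _) ?_
    · rwa [Pr_univ, one_mul] at this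
    · intro j ω ω' h
      have hrow : ∀ i, i ∉ J → Mx ω i = Mx ω' i := by
        intro i hi
        funext c
        have : ω s(i, c) = ω' s(i, c) := by
          refine h i c ?_ ?_
          · rintro ⟨j', -, rfl, -⟩
            exact hi (hJ (hrJ j'))
          · rintro ⟨j', -, -, hc⟩
            exact hi (Finset.mem_sdiff.1 hc).1
        simp [Mx, this]
      have hoff : ∀ c, c ∉ C → ω s(r j, c) = ω' s(r j, c) := by
        intro c hc
        refine h _ c ?_ ?_
        · rintro ⟨j', -, -, hc'⟩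
          exact hc hc'
        · rintro ⟨j', -, -, hc'⟩
          exact hrC j hc'
      have h1 : û σ ω = û σ ω' := by
        funext j'
        exact dec_congr hn4 Z J s τ (σ j') hrow
      have h2 : x0 ω j = x0 ω' j := by
        funext c
        by_cases hc : c ∈ C
        · simp [x0, hc]
        · simp [x0, hc, hoff c hc]
      have h3 : rs Jᶜ (Mx ω (r j)) = rs Jᶜ (Mx ω' (r j)) := by
        funext c
        by_cases hc : c ∈ J
        · simp [rs, hc]
        · have : c ∉ C := fun h' => hc (Finset.mem_sdiff.1 h').1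
          simp [rs, hc, Mx, hoff c this]
      simp only [F, Arow, h1, h2, h3]
  have hsub : EvF p Z J s k τ τ' b ⊆ {ω | ∃ σ ∈ (Finset.univ : Finset (Fin k → Fin n → Fin (4 * n))),
      ω ∈ E σ} := by
    rintro ω ⟨hI, g, hg, hanti⟩
    have hc := Isel_cond hI
    let σ : Fin k → Fin n → Fin (4 * n) := fun j l => cell (4 * n) hn4 (g j l)
    have hgD : ∀ j, DecP hn4 Z J s τ (σ j) (Mx ω) (g j) := fun j =>
      ⟨fun _ => rfl, fun i _ => (hg j).1 i, (hg j).2.1, (hg j).2.2⟩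
    have hw : ∀ j, ∃ w : Fin n → ℝ, û σ ω j - g j = (fun i => ((w i : ℝ) : T1)) ∧
        ∀ l, |w l| ≤ 24 * (n : ℝ) ^ 4 * τ := fun j =>
      dec_close hZ hτ hc (dec_spec (hgD j)) (hgD j)
    choose w hw1 hw2 using hw
    have hdiff : ∀ j (z : Fin n → ℤ) (a : ℝ), (∀ l, |(z l : ℝ)| ≤ a) →
        ‖pr z (û σ ω j) - pr z (g j)‖ ≤ a * τ3 := by
      intro j z a hz
      rw [← pr_sub_right, hw1, pr_coe]
      refine (norm_coe_le _).trans ((abs_dot_le z (w j) hz (hw2 j)).trans (le_of_eq ?_))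
      rw [hτ3]; ring
    refine ⟨σ, Finset.mem_univ _, Set.mem_univ _, fun j => ?_⟩
    have hmem : (fun c => ω s(r j, c)) ∈ Arow J (û σ ω) (Mx ω (r j)) τ3 := by
      intro j'
      have e1 : sv (fun c => ω s(r j, c)) = Mx ω (r j) := rfl
      rw [e1, ← pr_add_left, rs_add_compl]
      have := hdiff j' (Mx ω (r j)) 1 (fun l => abs_Mx ω _ l)
      rwa [(hg j').1 (r j), sub_zero, one_mul] at this
    have hA : Pr p (Arow J (û σ ω) (Mx ω (r j)) τ3) ≤ b := by
      refine le_trans (Pr_mono hp0.le hp1.le ?_) (hanti (fun c => ω s(r j, c)))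
      intro y hy j'
      have a1 := hy j'
      have a2 := hmem j'
      have a3 := hdiff j' (rs J (sv y - sv fun c => ω s(r j, c))) 2 (fun l => by
        by_cases hl : l ∈ J
        · simp only [rs, hl, if_true, Pi.sub_apply, sv]
          have b1 := abs_sg (y l)
          have b2 := abs_sg (ω s(r j, l))
          have : |sg (y l) - sg (ω s(r j, l))| ≤ 2 := by
            have := abs_sub (sg (y l)) (sg (ω s(r j, l)))
            omega
          exact_mod_cast this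
        · simp [rs, hl])
      have a4 : ‖pr (rs J (sv y - sv fun c => ω s(r j, c))) (û σ ω j')‖ ≤ 2 * τ3 := by
        rw [rs_sub, pr_sub_left]
        have := norm_sub_le (pr (rs J (sv y)) (û σ ω j') + pr (rs Jᶜ (Mx ω (r j))) (û σ ω j'))
          (pr (rs J (sv fun c => ω s(r j, c))) (û σ ω j') + pr (rs Jᶜ (Mx ω (r j))) (û σ ω j'))
        rw [add_sub_add_right_eq_sub] at this
        linarith
      have a5 := norm_sub_le (pr (rs J (sv y - sv fun c => ω s(r j, c))) (û σ ω j'))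
        (pr (rs J (sv y - sv fun c => ω s(r j, c))) (û σ ω j') -
          pr (rs J (sv y - sv fun c => ω s(r j, c))) (g j'))
      rw [sub_sub_cancel] at a5
      have : 0 ≤ (n : ℝ) ^ 5 * τ := by positivity
      rw [hτ3] at a3 a4
      nlinarith
    refine ⟨?_, ?_⟩
    · have := Pr_slice hp0 hp1 C J' (Arow J (û σ ω) (Mx ω (r j)) τ3) ?_ (x0 ω j)
      · rw [hb', le_div_iff₀ (pow_pos hpn _)]
        exact this.trans hA
      · intro x y hxy hx j'
        have : rs J (sv y) = rs J (sv x) := by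
          funext c
          by_cases hc : c ∈ J
          · have : x c = y c := hxy c (by
              by_cases h' : c ∈ J'
              · exact Or.inr h'
              · exact Or.inl (Finset.mem_sdiff.2 ⟨hc, h'⟩))
            simp [rs, hc, sv, this]
          · simp [rs, hc]
        rw [this]
        exact hx j'
    · show (fun c => if h : c ∈ C then ω s(r j, c) else x0 ω j c) ∈
        Arow J (û σ ω) (Mx ω (r j)) τ3
      have : (fun c => if h : c ∈ C then ω s(r j, c) else x0 ω j c) = fun c => ω s(r j, c) := by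
        funext c
        by_cases hc : c ∈ C <;> simp [x0, hc]
      rw [this]
      exact hmem
  refine (Pr_mono hp0.le hp1.le hsub).trans
    ((Pr_exists_le hp0.le hp1.le _ E (fun σ _ => hE σ)).trans (le_of_eq ?_))
  simp only [Finset.card_univ, Fintype.card_fun, Fintype.card_fin]
  push_cast
  rw [← pow_mul]

end Crest.Agent.R152
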