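import Crest.Agent.R152.F.One
import Crest.Agent.R152.F.Two

/-! Row 152, Theorem L, notes152/H33.md 3D-F. -/

set_option autoImplicit false
open Matrix Filter

namespace Crest.Agent.R152

theorem ev_log {a : ℝ} (ha : 0 < a) (A : ℝ) :
    ∀ᶠ n : ℕ in atTop, A * (Real.log n + 1) ≤ a * n := by
  have h1 : Tendsto (fun x : ℝ => Real.log x / x) atTop (nhds 0) := by
    simpa using Real.tendsto_pow_log_div_mul_add_atTop 1 0 1 one_ne_zero
  have h2 : Tendsto (fun x : ℝ => 1 / x) atTop (nhds 0) := tendsto_const_nhds.div_atTop tendsto_id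
  have h3 : Tendsto (fun x : ℝ => A * (Real.log x / x + 1 / x)) atTop (nhds 0) := by
    simpa using (h1.add h2).const_mul A
  have h4 := (h3.comp tendsto_natCast_atTop_atTop).eventually (gt_mem_nhds ha)
  filter_upwards [h4, eventually_ge_atTop 1] with n hn hn1
  have hn0 : (0 : ℝ) < n := by exact_mod_cast hn1
  have : A * (Real.log n / n + 1 / n) = A * (Real.log n + 1) / n := by ring
  simp only [Function.comp] at hn
  rw [this, div_lt_iff₀ hn0] at hn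
  exact hn.le

theorem ev_ge (A : ℝ) : ∀ᶠ n : ℕ in atTop, A ≤ (n : ℝ) :=
  tendsto_natCast_atTop_atTop.eventually_ge_atTop A

theorem exists_blk (n b : ℕ) (hb : 1 ≤ b) : ∃ blk : Fin n → Fin b, ∀ a,
    (n : ℝ) / b - 1 ≤ (blkJ blk a).card ∧ ((blkJ blk a).card : ℝ) ≤ n / b + 1 := by
  refine ⟨fun i => ⟨i % b, Nat.mod_lt _ hb⟩, fun a => ?_⟩
  have hc : (blkJ (fun i : Fin n => (⟨i % b, Nat.mod_lt _ hb⟩ : Fin b)) a).card =
      Nat.count (fun x => x ≡ a [MOD b]) n := by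
    rw [Nat.count_eq_card_filter_range, blkJ]
    refine Finset.card_bij (fun i _ => (i : ℕ)) ?_ ?_ ?_
    · intro i hi
      simp only [Finset.mem_filter, Finset.mem_univ, true_and] at hi
      simp only [Finset.mem_filter, Finset.mem_range]
      refine ⟨i.2, ?_⟩
      have := congrArg Fin.val hi
      simp only at this
      rw [Nat.ModEq, this, Nat.mod_eq_of_lt a.2]
    · intro i _ j _ h
      exact Fin.ext h
    · intro x hx
      simp only [Finset.mem_filter, Finset.mem_range] at hx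
      refine ⟨⟨x, hx.1⟩, ?_, rfl⟩
      simp only [Finset.mem_filter, Finset.mem_univ, true_and]
      apply Fin.ext
      have := hx.2
      rw [Nat.ModEq, Nat.mod_eq_of_lt a.2] at this
      exact this
  rw [hc, Nat.count_modEq_card _ hb]
  have hb0 : (0 : ℝ) < b := by exact_mod_cast hb
  have h1 : ((n / b : ℕ) : ℝ) ≤ n / b := Nat.cast_div_le
  have h2 : (n : ℝ) / b < (n / b : ℕ) + 1 := by
    rw [div_lt_iff₀ hb0]
    have := Nat.lt_div_mul_add (a := n) hb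
    have h3 : (n : ℝ) < ((n / b * b + b : ℕ) : ℝ) := by exact_mod_cast this
    push_cast at h3
    linarith
  split_ifs <;> push_cast <;> constructor <;> linarith

theorem exp_Lg_lt {n : ℕ} (hn : 1 ≤ n) : Real.exp (Lg n / 2) < 2 ^ (n ^ 2) := by
  have hn0 : (0 : ℝ) < n := by exact_mod_cast hn
  have h1 : Real.log n ≤ n - 1 := Real.log_le_sub_one_of_pos hn0
  have h2 : (2 : ℝ) ^ (n ^ 2) = Real.exp (n ^ 2 * Real.log 2) := by
    rw [← Real.exp_log (show (0 : ℝ) < 2 by norm_num), ← Real.exp_nat_mul, Real.exp_log (by norm_num)]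
    push_cast
    rfl
  rw [h2, Real.exp_lt_exp, Lg]
  have := Real.log_two_gt_d9
  nlinarith

theorem pow_eq_exp {x : ℝ} (hx : 0 < x) (m : ℕ) : x ^ m = Real.exp (m * Real.log x) := by
  rw [Real.exp_nat_mul, Real.exp_log hx]

theorem fm_n4 {n K1 b s : ℕ} {c σ0 : ℝ} (hnR : (4800 : ℝ) ≤ n) (hlog : 1 ≤ Real.log n)
    (hbR : (1 : ℝ) ≤ b) (hσ0d : σ0 = c / (8 * b * (K1 + 1))) (e3 : (s : ℝ) ≤ σ0 * n) :
    ((n : ℝ) ^ K1 + 1) ^ (b * s) ≤ Real.exp (c / 8 * Lg n) := by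
  have hn0 : (0 : ℝ) < n := by linarith
  have e1 : (n : ℝ) ^ K1 + 1 ≤ (n : ℝ) ^ (K1 + 1) := by
    rw [pow_succ]
    have : (1 : ℝ) ≤ (n : ℝ) ^ K1 := one_le_pow₀ (by linarith)
    nlinarith
  refine (pow_le_pow_left₀ (by positivity) e1 _).trans ?_
  rw [← pow_mul, pow_eq_exp hn0, Real.exp_le_exp, Lg]
  have e4 : (((K1 + 1) * (b * s) : ℕ) : ℝ) ≤ c / 8 * n := by
    push_cast
    calc ((K1 : ℝ) + 1) * (b * s) ≤ (K1 + 1) * (b * (σ0 * n)) := by gcongr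
      _ = c / 8 * n := by rw [hσ0d]; field_simp
  nlinarith

theorem fm_n4b {c L x y : ℝ} (hc : 0 < c) (hL0 : 0 ≤ L) (h : Real.exp (c * L) ≤ Real.exp (c / 8 * L) * x)
    (hy : y ≤ Real.exp (c / 8 * L)) :
    Real.exp (c / 2 * L) * Real.exp (c / 8 * L) * y ≤ x := by
  have e5 : Real.exp (c / 8 * L) * (Real.exp (c / 2 * L) * Real.exp (c / 8 * L) *
      Real.exp (c / 8 * L)) ≤ Real.exp (c / 8 * L) * x := by
    refine le_trans ?_ h
    rw [← Real.exp_add, ← Real.exp_add, ← Real.exp_add, Real.exp_le_exp]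
    nlinarith
  have e6 := le_of_mul_le_mul_left e5 (Real.exp_pos _)
  refine le_trans ?_ e6
  gcongr

theorem fm_n5 {x : ℝ} (K' b : ℕ) (hnR : (4800 : ℝ) ≤ x) :
    4 * (x ^ K') ^ 5 * (200 * x ^ 5 * (x ^ (K' * (b + 5) + 7))⁻¹) < 1 := by
  have hn0 : (0 : ℝ) < x := by linarith
  have e1 : x ^ (K' * (b + 5) + 7) = (x ^ K') ^ 5 * x ^ 5 * (x ^ (K' * b) * x ^ 2) := by
    ring
  have e2 : (1 : ℝ) ≤ x ^ (K' * b) := one_le_pow₀ (by linarith)
  have e3 : 4 * (x ^ K') ^ 5 * (200 * x ^ 5 * (x ^ (K' * (b + 5) + 7))⁻¹) =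
      800 / (x ^ (K' * b) * x ^ 2) := by
    rw [e1]; field_simp; norm_num
  rw [e3, div_lt_one (by positivity)]
  nlinarith

theorem fm_n6 {x : ℝ} (K' b : ℕ) (hnR : (4800 : ℝ) ≤ x) (hb : 4800 * (b : ℝ) ≤ x) :
    24 * x * b * (x ^ K') ^ (b + 1) * (200 * x ^ 5 * (x ^ (K' * (b + 5) + 7))⁻¹) ≤ 1 := by
  have hn0 : (0 : ℝ) < x := by linarith
  have e1 : x ^ (K' * (b + 5) + 7) = (x ^ K') ^ (b + 1) * x ^ 6 * (x ^ (K' * 4) * x) := by
    ring
  have e2 : (1 : ℝ) ≤ x ^ (K' * 4) := one_le_pow₀ (by linarith)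
  have e3 : 24 * x * b * (x ^ K') ^ (b + 1) * (200 * x ^ 5 * (x ^ (K' * (b + 5) + 7))⁻¹) =
      4800 * b / (x ^ (K' * 4) * x) := by
    rw [e1]; field_simp; ring
  rw [e3, div_le_one (by positivity)]
  nlinarith

theorem fm_n7 {n K' k : ℕ} (hnR : (4800 : ℝ) ≤ n) (hlog : 1 ≤ Real.log n)
    (hlog4 : Real.log 4 ≤ Real.log n) (hl4 : Real.log 4 ≤ 3 / 2) (hK'R : (1 : ℝ) ≤ K')
    (e1 : 3 * n / (K' * Real.log n) ≤ k) :
    (4 : ℝ) ^ n * (2 / (n : ℝ) ^ K') ^ k ≤ 1 := by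
  have hn0 : (0 : ℝ) < n := by linarith
  rw [div_le_iff₀ (by positivity)] at e1
  rw [pow_eq_exp (show (0 : ℝ) < 4 by norm_num), pow_eq_exp (by positivity),
    ← Real.exp_add, Real.exp_le_one_iff, Real.log_div (by norm_num) (by positivity),
    Real.log_pow]
  have e2 : Real.log 2 ≤ K' * Real.log n / 2 := by
    have : Real.log 4 = 2 * Real.log 2 := by
      rw [show (4 : ℝ) = 2 ^ 2 by norm_num, Real.log_pow]; norm_num
    nlinarith
  have e3 : (0 : ℝ) ≤ k := Nat.cast_nonneg _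
  nlinarith

theorem fm_BC {n s : ℕ} {q lp σ0 c6 : ℝ} (hq : 0 < q) (hlp : lp = -Real.log q) (hlp0 : 0 < lp)
    (hσ00 : 0 < σ0) (hs : s = ⌊σ0 * n⌋₊) (hn4 : 4 / σ0 ≤ n) (hc6 : c6 = lp * σ0 ^ 2 / 16) :
    (4 : ℝ) ^ n * q ^ ((s / 2) ^ 2) ≤ Real.exp (n * Real.log 4 - c6 * n ^ 2) := by
  rw [pow_eq_exp (show (0 : ℝ) < 4 by norm_num), pow_eq_exp hq, ← Real.exp_add,
    Real.exp_le_exp]
  have e1 : σ0 * n / 4 ≤ ((s / 2 : ℕ) : ℝ) := by
    have a1 := Nat.lt_floor_add_one (σ0 * n)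
    rw [← hs] at a1
    have a2 : s ≤ 2 * (s / 2) + 1 := by omega
    have a3 : (s : ℝ) ≤ 2 * ((s / 2 : ℕ) : ℝ) + 1 := by exact_mod_cast a2
    rw [div_le_iff₀ hσ00] at hn4
    nlinarith
  have e2 : (σ0 * n / 4) ^ 2 ≤ ((s / 2 : ℕ) : ℝ) ^ 2 := by gcongr
  have e3 : Real.log q = -lp := by rw [hlp]; ring
  rw [e3, hc6]
  push_cast
  nlinarith

theorem fm_EV {n K' k j' b m : ℕ} {q Lp θ σ c5 : ℝ} (hq : 0 < q) (hLp : Lp = -Real.log q)
    (hLp0 : 0 < Lp) (hθ : 0 < θ) (hσ0 : 0 < σ) (hbR : (1 : ℝ) ≤ b) (hnR : (4800 : ℝ) ≤ n)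
    (hlog : 1 ≤ Real.log n) (hlog4 : Real.log 4 ≤ Real.log n) (hK'R : (1 : ℝ) ≤ K')
    (hσ : σ ≤ θ / (8 * b * Lp)) (hj'le : (j' : ℝ) ≤ σ * n) (hj'ge : σ * n / 2 ≤ j')
    (hm : (n : ℝ) / (2 * b) ≤ m) (hc5 : c5 = θ * σ / (8 * b)) (hK'c : 24 / c5 ≤ K')
    (hk : (k : ℝ) < 3 * n / (K' * Real.log n) + 1)
    (hn5 : K' * (Real.log n + 1) ≤ θ / (8 * b) * n) :
    (4 * (n : ℝ)) ^ (n * k) * ((n : ℝ) ^ K' * Real.exp (-θ * m) / q ^ j') ^ j' ≤
      Real.exp (2 * n * Real.log n - 3 / 4 * c5 * n ^ 2) := by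
  have hn0 : (0 : ℝ) < n := by linarith
  have hc50 : 0 < c5 := by rw [hc5]; positivity
  have e1 : (n : ℝ) ^ K' * Real.exp (-θ * m) / q ^ j' ≤ Real.exp (-(θ * n / (4 * b))) := by
    rw [pow_eq_exp hn0, pow_eq_exp hq, ← Real.exp_add, ← Real.exp_sub, Real.exp_le_exp]
    have a1 : Real.log q = -Lp := by rw [hLp]; ring
    have a2 : (j' : ℝ) * Lp ≤ θ / (8 * b) * n := by
      calc (j' : ℝ) * Lp ≤ θ / (8 * b * Lp) * n * Lp := by
            gcongr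
            exact hj'le.trans (by gcongr)
        _ = θ / (8 * b) * n := by field_simp
    have a3 : θ * (n / (2 * b)) ≤ θ * m := by gcongr
    have a4 : θ * (n / (2 * b)) = 4 * (θ / (8 * b) * n) := by field_simp; norm_num
    have a5 : θ * n / (4 * b) = 2 * (θ / (8 * b) * n) := by field_simp; norm_num
    rw [a1]
    nlinarith
  have e2 : ((n : ℝ) ^ K' * Real.exp (-θ * m) / q ^ j') ^ j' ≤ Real.exp (-(c5 * n ^ 2)) := by
    refine (pow_le_pow_left₀ (by positivity) e1 _).trans ?_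
    rw [← Real.exp_nat_mul, Real.exp_le_exp]
    have a1 : σ * n / 2 * (θ * n / (4 * b)) ≤ j' * (θ * n / (4 * b)) := by gcongr
    have a2 : σ * n / 2 * (θ * n / (4 * b)) = c5 * n ^ 2 := by rw [hc5]; field_simp; norm_num
    linarith
  have e3 : (4 * (n : ℝ)) ^ (n * k) ≤ Real.exp (c5 / 4 * n ^ 2 + 2 * n * Real.log n) := by
    rw [pow_eq_exp (by positivity), Real.exp_le_exp, Real.log_mul (by norm_num) hn0.ne']
    have a2 : (k : ℝ) * Real.log n ≤ 3 * n / K' + Real.log n := by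
      calc (k : ℝ) * Real.log n ≤ (3 * n / (K' * Real.log n) + 1) * Real.log n := by gcongr
        _ = 3 * n / K' + Real.log n := by field_simp
    have a3 : 3 * (n : ℝ) / K' ≤ c5 / 8 * n := by
      rw [div_le_iff₀ hc50] at hK'c
      rw [div_le_iff₀ (by positivity)]
      nlinarith
    have a4 : (k : ℝ) * (Real.log 4 + Real.log n) ≤ 2 * (k * Real.log n) := by
      have : (0 : ℝ) ≤ k := Nat.cast_nonneg _
      nlinarith
    push_cast
    nlinarith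
  refine (mul_le_mul e3 e2 (by positivity) (by positivity)).trans ?_
  rw [← Real.exp_add, Real.exp_le_exp]
  linarith

theorem fm_fin {x C δ c5 c6 b y : ℝ} (hnR : (4800 : ℝ) ≤ x) (hlog : 1 ≤ Real.log x)
    (hl4 : Real.log 4 ≤ 3 / 2) (hbR : (1 : ℝ) ≤ b) (hδ1 : δ ≤ c5 / 4) (hδ2 : δ ≤ c6 / 2)
    (hn6 : (|C| + 3 + b) * (Real.log x + 1) ≤ c6 / 2 * x)
    (hn7 : (|C| + 3 + b) * (Real.log x + 1) ≤ c5 / 2 * x)
    (hcard : y ≤ Real.exp (δ * x ^ 2 + b)) :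
    Real.exp (-(C + 1) * x) + y * (Real.exp (x * Real.log 4 - c6 * x ^ 2) +
      Real.exp (2 * x * Real.log x - 3 / 4 * c5 * x ^ 2)) ≤ Real.exp (-C * x) := by
  have hC1 := le_abs_self C
  have hC0 := abs_nonneg C
  have hn0 : (0 : ℝ) < x := by linarith
  have f1 : Real.exp (δ * x ^ 2 + b) * Real.exp (x * Real.log 4 - c6 * x ^ 2) ≤
      Real.exp (-(C + 1) * x) := by
    rw [← Real.exp_add, Real.exp_le_exp]
    have a1 : δ * x ^ 2 ≤ c6 / 2 * x ^ 2 := by gcongr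
    have a2 : (|C| + 3 + b) * x ≤ c6 / 2 * x * x := by
      have : |C| + 3 + b ≤ c6 / 2 * x := by nlinarith
      gcongr
    nlinarith
  have f2 : Real.exp (δ * x ^ 2 + b) * Real.exp (2 * x * Real.log x - 3 / 4 * c5 * x ^ 2) ≤
      Real.exp (-(C + 1) * x) := by
    rw [← Real.exp_add, Real.exp_le_exp]
    have a1 : δ * x ^ 2 ≤ c5 / 4 * x ^ 2 := by gcongr
    have a2 : (|C| + 1 + b + 2 * Real.log x) * x ≤ c5 / 2 * x * x := by
      have : |C| + 1 + b + 2 * Real.log x ≤ c5 / 2 * x := by nlinarith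
      gcongr
    nlinarith
  have f3 : 3 * Real.exp (-(C + 1) * x) ≤ Real.exp (-C * x) := by
    have : Real.exp (-C * x) = Real.exp x * Real.exp (-(C + 1) * x) := by
      rw [← Real.exp_add]; congr 1; ring
    rw [this]
    have := Real.add_one_le_exp x
    gcongr
    linarith
  have f4 := mul_le_mul_of_nonneg_right hcard (show 0 ≤ Real.exp (x * Real.log 4 - c6 * x ^ 2) +
      Real.exp (2 * x * Real.log x - 3 / 4 * c5 * x ^ 2) by positivity)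
  rw [mul_add (Real.exp (δ * x ^ 2 + b))] at f4
  linarith

set_option maxHeartbeats 1600000 in
theorem stL_of (h1 : StF1) (h2 : StF2) (hSL : StSL) (hC : StC) (hR : StR) (hL3 : StL3) : StL := by
  intro p c ε C hp0 hp1 hc hε
  classical
  obtain ⟨θ, hθ, hL3n⟩ := hL3 p (c / 2) hp0 hp1 (by linarith)
  have hpm0 : 0 < pm p := pm_pos
  have hpn0 : 0 < pn p := pn_pos hp0 hp1
  obtain ⟨lp, hlp⟩ : ∃ x : ℝ, x = -Real.log (pm p) := ⟨_, rfl⟩
  have hlp0 : 0 < lp := by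
    have := Real.log_neg hpm0 (pm_lt_one hp0 hp1)
    linarith
  obtain ⟨Lp, hLp⟩ : ∃ x : ℝ, x = -Real.log (pn p) := ⟨_, rfl⟩
  have hLp0 : 0 < Lp := by
    have h : pn p < 1 := lt_of_le_of_lt (min_le_left _ _) hp1
    have := Real.log_neg hpn0 h
    linarith
  obtain ⟨b, hb⟩ : ∃ x : ℕ, x = ⌈2 / ε⌉₊ := ⟨_, rfl⟩
  have hbε : 2 / ε ≤ b := hb ▸ Nat.le_ceil _
  have hb1 : 1 ≤ b := hb ▸ Nat.one_le_iff_ne_zero.2 (Nat.ceil_pos.2 (by positivity)).ne'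
  have hbR : (1 : ℝ) ≤ b := by exact_mod_cast hb1
  obtain ⟨σ, hσ⟩ : ∃ x : ℝ, x = min (θ / (8 * b * Lp)) (1 / (2 * b)) := ⟨_, rfl⟩
  have hσ0 : 0 < σ := hσ ▸ lt_min (by positivity) (by positivity)
  obtain ⟨c5, hc5⟩ : ∃ x : ℝ, x = θ * σ / (8 * b) := ⟨_, rfl⟩
  have hc50 : 0 < c5 := by rw [hc5]; positivity
  obtain ⟨K', hK'⟩ : ∃ x : ℕ, x = ⌈24 / c5⌉₊ + 1 := ⟨_, rfl⟩
  have hK'1 : 1 ≤ K' := by omega
  have hK'R : (1 : ℝ) ≤ K' := by exact_mod_cast hK'1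
  have hK'c : 24 / c5 ≤ K' := by
    have := Nat.le_ceil (24 / c5)
    rw [hK']; push_cast; linarith
  obtain ⟨K0, hK0⟩ : ∃ x : ℕ, x = K' * (b + 5) + 7 := ⟨_, rfl⟩
  obtain ⟨K1, hK1⟩ : ∃ x : ℕ, x = K0 + 2 + 3 * K' := ⟨_, rfl⟩
  obtain ⟨σ0, hσ0d⟩ : ∃ x : ℝ, x = c / (8 * b * (K1 + 1)) := ⟨_, rfl⟩
  have hσ00 : 0 < σ0 := by rw [hσ0d]; positivity
  obtain ⟨c6, hc6⟩ : ∃ x : ℝ, x = lp * σ0 ^ 2 / 16 := ⟨_, rfl⟩
  have hc60 : 0 < c6 := by rw [hc6]; positivity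
  obtain ⟨δ, hδ⟩ : ∃ x : ℝ, x = min (c5 / 4) (c6 / 2) := ⟨_, rfl⟩
  have hδ0 : 0 < δ := hδ ▸ lt_min (by positivity) (by positivity)
  have hK1pos : (0 : ℝ) < K1 := by
    have : 0 < K1 := by omega
    exact_mod_cast this
  have hKb : (0 : ℝ) < ((K' * b : ℕ) : ℝ) := by
    have : 0 < K' * b := Nat.mul_pos hK'1 hb1
    exact_mod_cast this
  filter_upwards [hL3n, hSL ε δ (c / 8) K1 hε hδ0 (by positivity) hK1pos,
    hR p (c / 8) (K' * b : ℕ) (C + 1) hp0 hp1 (by positivity) hKb,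
    ev_ge (4800 * b), ev_ge (4 / ε), ev_ge (2 / σ), ev_ge (4 / σ0),
    ev_log (show 0 < θ / (8 * b) by positivity) K',
    ev_log (show 0 < c6 / 2 by positivity) (|C| + 3 + b),
    ev_log (show 0 < c5 / 2 by positivity) (|C| + 3 + b)]
    with n hL3n hSLn hRn hn1 hn2 hn3 hn4 hn5 hn6 hn7
  generalize ht : ⌊ε * n⌋₊ = t at hSLn
  obtain ⟨F, hFc, hFg, hF⟩ := hSLn
  have hnR : (4800 : ℝ) ≤ n := by nlinarith
  have hn0 : (0 : ℝ) < n := by linarith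
  have hn1' : 1 ≤ n := by exact_mod_cast (show (1 : ℝ) ≤ n by linarith)
  have hlog : 1 ≤ Real.log n := by
    rw [Real.le_log_iff_exp_le hn0]
    have := Real.exp_one_lt_d9
    linarith
  have hlog4 : Real.log 4 ≤ Real.log n := Real.log_le_log (by norm_num) (by linarith)
  have hl4 : Real.log 4 ≤ 3 / 2 := by
    have : Real.log 4 = 2 * Real.log 2 := by
      rw [show (4 : ℝ) = 2 ^ 2 by norm_num, Real.log_pow]; norm_num
    have := Real.log_two_lt_d9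
    linarith
  obtain ⟨blk, hblk⟩ := exists_blk n b hb1
  obtain ⟨s, hs⟩ : ∃ x : ℕ, x = ⌊σ0 * n⌋₊ := ⟨_, rfl⟩
  obtain ⟨j', hj'⟩ : ∃ x : ℕ, x = ⌊σ * n⌋₊ := ⟨_, rfl⟩
  obtain ⟨k, hk⟩ : ∃ x : ℕ, x = ⌈3 * n / (K' * Real.log n)⌉₊ := ⟨_, rfl⟩
  obtain ⟨N, hN⟩ : ∃ x : ℕ, x = n ^ K' := ⟨_, rfl⟩
  obtain ⟨τ0, hτ0⟩ : ∃ x : ℝ, x = ((n : ℝ) ^ K0)⁻¹ := ⟨_, rfl⟩
  have hτ00 : 0 < τ0 := by rw [hτ0]; positivity
  obtain ⟨τ', hτ'⟩ : ∃ x : ℝ, x = 200 * (n : ℝ) ^ 5 * τ0 := ⟨_, rfl⟩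
  have hNR : (N : ℝ) = (n : ℝ) ^ K' := by rw [hN]; push_cast; rfl
  have hJlo : ∀ a, (n : ℝ) / (2 * b) ≤ (blkJ blk a).card := fun a => by
    refine le_trans ?_ (hblk a).1
    have : (n : ℝ) / b = 2 * (n / (2 * b)) := by field_simp
    have h3 : 1 ≤ (n : ℝ) / (2 * b) := by rw [le_div_iff₀ (by positivity)]; nlinarith
    linarith
  have hJt : ∀ a, (blkJ blk a).card ≤ t := fun a => by
    rw [← ht]
    apply Nat.le_floor
    refine (hblk a).2.trans ?_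
    have h3 : (n : ℝ) / b ≤ ε * n / 2 := by
      rw [div_le_iff₀ (by positivity)]
      rw [div_le_iff₀ hε] at hbε
      nlinarith
    rw [div_le_iff₀ hε] at hn2
    nlinarith
  have hj'le : (j' : ℝ) ≤ σ * n := hj' ▸ Nat.floor_le (by positivity)
  have hj'ge : σ * n / 2 ≤ j' := by
    have := Nat.lt_floor_add_one (σ * n)
    rw [div_le_iff₀ hσ0] at hn3
    rw [← hj'] at this
    nlinarith
  have hj'J : ∀ a, j' ≤ (blkJ blk a).card := fun a => by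
    have h3 : σ * n ≤ n / (2 * b) := by
      have : σ ≤ 1 / (2 * b) := hσ ▸ min_le_right _ _
      calc σ * n ≤ 1 / (2 * b) * n := by gcongr
        _ = n / (2 * b) := by ring
    exact_mod_cast hj'le.trans (h3.trans (hJlo a))
  choose J' hJ'1 hJ'2 using fun a => Finset.exists_subset_card_eq (hj'J a)
  let BC : (Fin t → Fin n → ℤ) → Fin b → Set (Om n) := fun Z a =>
    {ω | ¬ ∃ I : Finset (Fin n), I.card ≤ s ∧ CondI Z (blkJ blk a) (Mx ω) I}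
  let EV : (Fin t → Fin n → ℤ) → Fin b → Set (Om n) := fun Z a =>
    EvF p Z (blkJ blk a) s k (2 * τ0) τ' (N * Real.exp (-θ * (blkJ blk a).card))
  have hsub : BadL n c ε ⊆ BadR n (c / 8) (K' * b : ℕ) ∪
      {ω | ∃ q ∈ F ×ˢ (Finset.univ : Finset (Fin b)), ω ∈ BC q.1 q.2 ∪ EV q.1 q.2} := by
    rintro ω ⟨hdet, K, hK, hKc, hKa⟩
    by_cases hbr : ω ∈ BadR n (c / 8) (K' * b : ℕ)
    · exact Or.inl hbr
    right
    have := finite_Td _ hdet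
    have hKfin : Finite K := Finite.of_injective _ (AddSubgroup.inclusion_injective hK)
    obtain ⟨Z, hZF, G1, hG1, hG1c, hG1s⟩ := hF K hKfin hKa
    by_cases hbc : ∃ a, ω ∈ BC Z a
    · obtain ⟨a, ha⟩ := hbc
      exact ⟨(Z, a), by simp [hZF], Or.inl ha⟩
    push Not at hbc
    have hτs : τ0 / (((n ^ 2 : ℕ) : ℝ) * (N : ℝ) ^ 3) = ((n : ℝ) ^ K1)⁻¹ := by
      rw [hNR, hτ0, hK1]
      push_cast
      field_simp
      ring
    have := h1 p θ (c / 2) n t b s k N (n ^ 2) ω Z blk K G1 τ0 τ' (Real.exp (c / 8 * Lg n))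
      (fun a => Isel Z (blkJ blk a) s (Mx ω)) hp0 hp1 hn1' (hN ▸ Nat.one_le_pow _ _ hn1')
      (Nat.one_le_pow _ _ hn1') hτ00 (by rw [hτ']; positivity) (hL3n ω hdet) hdet hK ?_ hG1 ?_ ?_ ?_ ?_ ?_ ?_
      (fun a => Isel_card _ _ _ _)
    · obtain ⟨a, g, hg1, hg2⟩ := this
      refine ⟨(Z, a), by simp [hZF], Or.inr ⟨?_, g, hg1, hg2⟩⟩
      by_contra h
      exact hbc a h
    · have e1 : Nat.card K ≤ Nat.card (Td (Mx ω)) :=
        Nat.card_le_card_of_injective _ (AddSubgroup.inclusion_injective hK)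
      rw [card_Td _ hdet] at e1
      have e2 := det_Mx_le ω
      have e3 := exp_Lg_lt hn1'
      have e4 : (((Mx ω).det.natAbs : ℕ) : ℝ) = |((Mx ω).det : ℝ)| := by
        rw [← Int.cast_abs, ← Int.natCast_natAbs]; rfl
      have e5 : ((Nat.card K : ℕ) : ℝ) < ((2 ^ n ^ 2 : ℕ) : ℝ) := by
        have : ((Nat.card K : ℕ) : ℝ) ≤ (((Mx ω).det.natAbs : ℕ) : ℝ) := by exact_mod_cast e1
        push_cast
        linarith
      exact_mod_cast e5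
    · intro u hu u' hu' a
      rw [hτs]
      have := hG1s u hu u' hu' a
      rwa [Real.rpow_neg hn0.le, Real.rpow_natCast] at this
    · intro D hD1 hD2
      by_contra h
      refine hbr ⟨D, hD1, ?_, lt_of_not_ge h⟩
      rw [Real.rpow_natCast, pow_mul, ← hNR]
      exact_mod_cast hD2
    · have e0 : ((n ^ 2 : ℕ) : ℝ) * (N : ℝ) ^ 3 / τ0 = (n : ℝ) ^ K1 := by
        rw [← inv_inv ((n : ℝ) ^ K1), ← hτs, inv_div]
      rw [e0]
      have hL0 : 0 ≤ Lg n := by unfold Lg; positivity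
      exact fm_n4b hc hL0 (hKc.trans hG1c)
        (fm_n4 hnR hlog hbR hσ0d (hs ▸ Nat.floor_le (by positivity)))
    · rw [hNR, hτ', hτ0, hK0]
      exact fm_n5 K' b hnR
    · rw [hNR, hτ', hτ0, hK0]
      exact fm_n6 K' b hnR hn1
    · rw [hNR]
      exact fm_n7 hnR hlog hlog4 hl4 hK'R (hk ▸ Nat.le_ceil _)
  have hBC : ∀ Z ∈ F, ∀ a, Pr p (BC Z a) ≤ Real.exp (n * Real.log 4 - c6 * n ^ 2) := by
    intro Z hZ a
    exact (hC p hp0 hp1 n t Z (hFg Z hZ) _ (hJt a) s).trans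
      (fm_BC hpm0 hlp hlp0 hσ00 hs hn4 hc6)
  have hEV : ∀ Z ∈ F, ∀ a, Pr p (EV Z a) ≤
      Real.exp (2 * n * Real.log n - 3 / 4 * c5 * n ^ 2) := by
    intro Z hZ a
    refine (h2 p n t Z _ (J' a) s k (2 * τ0) τ' _ hp0 hp1 hn1' (hFg Z hZ) (hJ'1 a) (by positivity)
      (by rw [hτ']; linarith) (by positivity)).trans ?_
    rw [hJ'2 a, hNR]
    exact fm_EV hpn0 hLp hLp0 hθ hσ0 hbR hnR hlog hlog4 hK'R (hσ ▸ min_le_left _ _) hj'le hj'ge
      (hJlo a) hc5 hK'c (hk ▸ Nat.ceil_lt_add_one (by positivity)) hn5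
  have hq := Pr_exists_le hp0.le hp1.le (F ×ˢ (Finset.univ : Finset (Fin b)))
    (fun q => BC q.1 q.2 ∪ EV q.1 q.2)
    (b := Real.exp (n * Real.log 4 - c6 * n ^ 2) +
      Real.exp (2 * n * Real.log n - 3 / 4 * c5 * n ^ 2)) (fun q hq =>
      (Pr_union_le hp0.le hp1.le _ _).trans (add_le_add (hBC _ (Finset.mem_product.1 hq).1 _)
        (hEV _ (Finset.mem_product.1 hq).1 _)))
  refine (Pr_mono hp0.le hp1.le hsub).trans ((Pr_union_le hp0.le hp1.le _ _).trans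
    ((add_le_add hRn hq).trans ?_))
  have hcard : (((F ×ˢ (Finset.univ : Finset (Fin b))).card : ℕ) : ℝ) ≤
      Real.exp (δ * n ^ 2 + b) := by
    rw [Finset.card_product, Finset.card_univ, Fintype.card_fin, Real.exp_add]
    push_cast
    have := Real.add_one_le_exp (b : ℝ)
    gcongr
    linarith
  exact fm_fin hnR hlog hl4 hbR (hδ ▸ min_le_left _ _) (hδ ▸ min_le_right _ _) hn6 hn7 hcard

theorem stL (hSL : StSL) (hC : StC) (hR : StR) (hL3 : StL3) (hRat : StRat) : StL :=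
  stL_of (stF1 hRat) stF2 hSL hC hR hL3

end Crest.Agent.R152
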