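import Crest.Agent.R152.F.Defs

/-! Row 152, F1 (notes152/H33.md 3D and the first line of 3F).
Recipe.  `Bo τ` = elements `u` of the finite group `K` with `‖pr (Z a) u‖ ≤ τ` for all `a` and `‖u l‖ ≤ τ` for `l ∈ ⋃ a, I a` (at most `b s` coordinates).
(b) `r = τ0/M`; among `τ_i = τ0 + i r`, `i < M`, some has `|Bo (τ_i + r)| ≤ 2 |Bo τ_i|` (else `|K| ≥ 2^M`); `τ_i ≤ 2 τ0`.
(c) `τs = r/N³`: pigeonhole `G1` on the cells `⌊lift (u l)/τs⌋` of the coordinates `l ∈ ⋃ I a`; differences from a fixed element of the largest class lie in `Bo τs`.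
(d) `d` popular: `2 |Bo τ| ≤ N |{g ∈ Bo τ | ‖pr d g‖ ≤ τ'}|`.  If every block `a` had `y_a` with `Pr {y | rs J_a (sv y - sv y_a) popular} > N e^{-θ|J_a|}`, hRat (`χ = prH d`) and a union bound over
`D ∈ [1,N]` give `D_a` with `Pr A_a > e^{-θ|J_a|}`, `A_a = {y | ∀ g ∈ Bo τs, ‖D_a • pr (rs J_a (sv y - sv y_a)) g‖ ≤ 2Nτ'}`; `Pr_iInter`; `D = ∏ D_a ≤ N^b`, `G = D • Bo τs` has at least `|Bo τs|/Rr`
elements, `y0 i = y_(blk i) i`; the L3 hypothesis is contradicted.
(e) for the good block choose `g : Fin k → Bo τ` such that no non-popular `rs J (sv y - sv y0)` is small on all `g j` (count tuples, `4^n (2/N)^k ≤ 1`). -/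

set_option autoImplicit false
open Matrix Filter

namespace Crest.Agent.R152

theorem F1.fib_le {G : Type} [AddCommGroup G] (S T : Finset G)
    (h : ∀ u ∈ S, ∀ u' ∈ S, u - u' ∈ T) : S.card ≤ T.card := by
  rcases S.eq_empty_or_nonempty with rfl | ⟨u0, h0⟩
  · simp
  · exact Finset.card_le_card_of_injOn (· - u0) (fun u hu => h u hu u0 h0)
      fun u _ v _ e => sub_left_injective e

theorem F1.chain (f : ℕ → ℕ) (M : ℕ) (h0 : 1 ≤ f 0) (hM : f M < 2 ^ M) :
    ∃ i < M, f (i + 1) ≤ 2 * f i := by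
  by_contra hc
  push Not at hc
  have : ∀ i ≤ M, 2 ^ i ≤ f i := fun i hi => by
    induction i with
    | zero => simpa
    | succ i ih => have := hc i hi; have := ih (by omega); omega
  exact hM.not_ge (this M le_rfl)

/-- pigeonhole on the cells of some coordinates -/
theorem F1.cells {n : ℕ} (S T : Finset (Fin n → T1)) (L : Finset (Fin n)) {τ : ℝ} (hτ : 0 < τ)
    (h : ∀ u ∈ S, ∀ u' ∈ S, (∀ l ∈ L, ‖(u - u') l‖ ≤ τ) → u - u' ∈ T) :
    (S.card : ℝ) ≤ T.card * (1 / τ + 1) ^ L.card := by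
  classical
  let φ : T1 → ℝ := fun x => (AddCircle.equivIco 1 0 x : ℝ)
  have h1 : ∀ x, 0 ≤ φ x ∧ φ x < 1 := fun x => by simpa using (AddCircle.equivIco 1 0 x).2
  have h2 : ∀ x, ((φ x : ℝ) : T1) = x := fun x => (AddCircle.equivIco 1 0).symm_apply_apply x
  have h3 := Finset.card_le_mul_card_image_of_maps_to (s := S)
    (f := fun u (l : L) => ⌊φ (u l) / τ⌋₊)
    (t := Fintype.piFinset fun _ : L => Finset.range (⌊1 / τ⌋₊ + 1))
    (fun u _ => Fintype.mem_piFinset.2 fun l => Finset.mem_range.2 (Nat.lt_succ_of_le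
      (Nat.floor_mono (div_le_div_of_nonneg_right (h1 _).2.le hτ.le)))) T.card fun x _ =>
    F1.fib_le _ _ fun u hu u' hu' => by
      obtain ⟨hu, e⟩ := Finset.mem_filter.1 hu
      obtain ⟨hu', e'⟩ := Finset.mem_filter.1 hu'
      refine h u hu u' hu' fun l hl => ?_
      have e1 : ⌊φ (u l) / τ⌋₊ = ⌊φ (u' l) / τ⌋₊ := congrFun (e.trans e'.symm) ⟨l, hl⟩
      have a1 := Nat.floor_le (div_nonneg (h1 (u l)).1 hτ.le)
      have a2 := Nat.floor_le (div_nonneg (h1 (u' l)).1 hτ.le)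
      have a3 := Nat.lt_floor_add_one (φ (u l) / τ)
      have a4 := Nat.lt_floor_add_one (φ (u' l) / τ)
      rw [e1] at a1 a3
      have a5 : |φ (u l) / τ - φ (u' l) / τ| ≤ 1 := abs_le.2 ⟨by linarith, by linarith⟩
      rw [← sub_div, abs_div, abs_of_pos hτ, div_le_one hτ] at a5
      rw [Pi.sub_apply, ← h2 (u l), ← h2 (u' l), ← AddCircle.coe_sub]
      exact QuotientAddGroup.norm_mk_le_norm.trans a5
  rw [Fintype.card_piFinset, Finset.prod_const, Finset.card_range, Finset.card_univ,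
    Fintype.card_coe] at h3
  refine (Nat.cast_le.2 h3).trans ?_
  push_cast
  gcongr
  exact Nat.floor_le (by positivity)

/-- few test points detect all non-popular characters -/
theorem F1.samples {G ι : Type} [Fintype ι] [Nonempty ι] (B : Finset G) (hB : B.Nonempty)
    (P : ι → G → Prop) [∀ i, DecidablePred (P i)] {N k : ℕ} (hN : 1 ≤ N) (hk : k ≠ 0)
    (h : (Fintype.card ι : ℝ) * (2 / (N : ℝ)) ^ k ≤ 1) :
    ∃ g : Fin k → G, (∀ j, g j ∈ B) ∧
      ∀ i, (∀ j, P i (g j)) → 2 * B.card ≤ N * (B.filter (P i)).card := by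
  classical
  by_contra hc
  push Not at hc
  have hN' : (0 : ℝ) < N := by exact_mod_cast hN
  have hB' : (0 : ℝ) < B.card := by exact_mod_cast hB.card_pos
  let S : ι → Finset (Fin k → G) := fun i => if N * (B.filter (P i)).card < 2 * B.card then
    Fintype.piFinset fun _ => B.filter (P i) else ∅
  have h1 : Fintype.piFinset (fun _ : Fin k => B) ⊆ Finset.univ.biUnion S := fun g hg => by
    have hg := Fintype.mem_piFinset.1 hg
    obtain ⟨i, h1, h2⟩ := hc g hg
    refine Finset.mem_biUnion.2 ⟨i, Finset.mem_univ _, ?_⟩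
    simp only [S, if_pos h2]
    exact Fintype.mem_piFinset.2 fun j => Finset.mem_filter.2 ⟨hg j, h1 j⟩
  have h2 := (Finset.card_le_card h1).trans Finset.card_biUnion_le
  rw [Fintype.card_piFinset, Finset.prod_const, Finset.card_univ, Fintype.card_fin] at h2
  have h3 : ∀ i, ((S i).card : ℝ) < (2 / N * B.card) ^ k := fun i => by
    simp only [S]
    split_ifs with hi
    · rw [Fintype.card_piFinset, Finset.prod_const, Finset.card_univ, Fintype.card_fin, Nat.cast_pow]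
      refine pow_lt_pow_left₀ ?_ (Nat.cast_nonneg _) hk
      rw [div_mul_eq_mul_div, lt_div_iff₀' hN']
      exact_mod_cast hi
    · rw [Finset.card_empty, Nat.cast_zero]; positivity
  have h4 := Finset.sum_lt_sum_of_nonempty Finset.univ_nonempty fun i _ => h3 i
  rw [Finset.sum_const, Finset.card_univ, nsmul_eq_mul, mul_pow, ← mul_assoc] at h4
  have h5 : ((B.card : ℝ)) ^ k ≤ ∑ i, ((S i).card : ℝ) := by exact_mod_cast h2
  linarith [mul_le_mul_of_nonneg_right h (pow_pos hB' k).le]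

theorem F1.pr_nsmul {n : ℕ} (z : Fin n → ℤ) (D : ℕ) (u : Fin n → T1) : pr z (D • u) = D • pr z u :=
  map_nsmul (prH z) D u

theorem F1.pr_blocks {n b : ℕ} (blk : Fin n → Fin b) (x : Fin n → Bool) (y : Fin b → Fin n → Bool)
    (u : Fin n → T1) : pr (sv x - sv fun i => y (blk i) i) u =
      ∑ a, pr (rs (blkJ blk a) (sv x - sv (y a))) u := by
  simp only [pr]
  rw [Finset.sum_comm]
  refine Finset.sum_congr rfl fun i _ => ?_
  rw [Finset.sum_eq_single (blk i) (fun a _ ha => by simp [rs, blkJ, ha.symm]) (by simp)]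
  simp [rs, blkJ, sv]

/-- not all blocks can be structured -/
theorem F1.blocks {p θ : ℝ} {n b N : ℕ} (hp0 : 0 < p) (hp1 : p < 1) (hn : 1 ≤ n)
    (blk : Fin n → Fin b) (B : Finset (Fin n → T1)) {τ' : ℝ} (hτ : 0 ≤ τ')
    (h24 : 24 * n * b * (N : ℝ) ^ (b + 1) * τ' ≤ 1)
    (hL : ∀ D : ℕ, 1 ≤ D → D ≤ N ^ b → ∀ (A : Set (Fin n → Bool)) (y0 : Fin n → Bool),
      (∀ x ∈ A, ∀ g ∈ B, ‖pr (sv x - sv y0) (D • g)‖ ≤ 1 / (12 * n)) → Pr p A ≤ Real.exp (-θ * n)) :
    ∃ a : Fin b, ∀ y0 : Fin n → Bool, Pr p {y | ∃ D ∈ Finset.Icc 1 N, ∀ g ∈ B,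
      ‖D • pr (rs (blkJ blk a) (sv y - sv y0)) g‖ ≤ 2 * N * τ'} ≤
        N * Real.exp (-θ * (blkJ blk a).card) := by
  by_contra hc
  push Not at hc
  choose y hy using hc
  have h1 : ∀ a, ∃ D ∈ Finset.Icc 1 N, Real.exp (-θ * (blkJ blk a).card) < Pr p {x | ∀ g ∈ B,
      ‖D • pr (rs (blkJ blk a) (sv x - sv (y a))) g‖ ≤ 2 * N * τ'} := fun a => by
    by_contra h
    push Not at h
    have := Pr_exists_le hp0.le hp1.le _ _ h
    rw [Nat.card_Icc, Nat.add_sub_cancel] at this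
    exact (hy a).not_ge this
  choose D hD hA using h1
  have hD1 : ∀ a, 1 ≤ D a := fun a => (Finset.mem_Icc.1 (hD a)).1
  have hDN : ∏ a, D a ≤ N ^ b := by
    simpa using Finset.prod_le_pow_card Finset.univ D N fun a _ => (Finset.mem_Icc.1 (hD a)).2
  have hn' : (0 : ℝ) < n := by exact_mod_cast hn
  have h2 := hL (∏ a, D a) (Finset.one_le_prod' fun a _ => hD1 a) hDN
    {x | ∀ a ∈ Finset.univ, x ∈ {x | ∀ g ∈ B,
      ‖D a • pr (rs (blkJ blk a) (sv x - sv (y a))) g‖ ≤ 2 * N * τ'}} (fun i => y (blk i) i)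
    fun x hx g hg => by
      rw [F1.pr_nsmul, F1.pr_blocks, Finset.smul_sum]
      refine (norm_sum_le _ _).trans ((Finset.sum_le_card_nsmul _ _ ((N : ℝ) ^ b * (2 * N * τ'))
        fun a _ => ?_).trans ?_)
      · obtain ⟨e, he⟩ := Finset.dvd_prod_of_mem D (Finset.mem_univ a)
        have h3 : e ≤ N ^ b := le_trans (Nat.le_mul_of_pos_left e (hD1 a)) (he ▸ hDN)
        rw [he, mul_comm (D a), mul_smul]
        exact norm_nsmul_le.trans (mul_le_mul (by exact_mod_cast h3) (hx a (Finset.mem_univ a) g hg)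
          (norm_nonneg _) (by positivity))
      · rw [Finset.card_univ, Fintype.card_fin, nsmul_eq_mul, le_div_iff₀ (by positivity)]
        refine le_trans (le_of_eq ?_) h24
        ring
  rw [Pr_iInter Finset.univ (blkJ blk) (fun a _ a' _ h => Finset.disjoint_filter.2
    fun i _ h1 h2 => h (h1.symm.trans h2)) _ fun a _ x x' h hx => ?_] at h2
  · have : Nonempty (Fin b) := ⟨blk ⟨0, hn⟩⟩
    have h3 := Finset.prod_lt_prod_of_nonempty (fun a _ => Real.exp_pos _) (fun a _ => hA a)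
      Finset.univ_nonempty
    have h4 : ∑ a, (blkJ blk a).card = n := by
      simpa [blkJ] using (Finset.card_eq_sum_card_fiberwise (s := Finset.univ) (t := Finset.univ)
        (f := blk) fun _ _ => Finset.mem_univ _).symm
    rw [← Real.exp_sum, ← Finset.mul_sum, ← Nat.cast_sum, h4] at h3
    exact h3.not_ge h2
  · have : rs (blkJ blk a) (sv x' - sv (y a)) = rs (blkJ blk a) (sv x - sv (y a)) := by
      funext i
      by_cases hi : i ∈ blkJ blk a <;> simp [rs, hi, sv]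
      rw [h i hi]
    intro g hg
    rw [this]
    exact hx g hg

theorem stF1 (hRat : StRat) : StF1 := by
  classical
  intro p θ c n t b s k N M ω Z blk K G1 τ0 τ' Rr I hp0 hp1 hn hN hM hτ0 hτ' hL3 hdet hK hKM hG1 hZ
    hR hcard h4 h24 hk hI
  have hfin := finite_Td _ hdet
  have hTf : (Td (Mx ω) : Set (Fin n → T1)).Finite := Set.toFinite _
  have hKf : (K : Set (Fin n → T1)).Finite := hTf.subset hK
  have hN' : (0 : ℝ) < N := by exact_mod_cast hN
  have hM' : (0 : ℝ) < M := by exact_mod_cast hM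
  let L := Finset.univ.biUnion I
  let Bo : ℝ → Finset (Fin n → T1) := fun τ =>
    hKf.toFinset.filter fun u => (∀ a, ‖pr (Z a) u‖ ≤ τ) ∧ ∀ l ∈ L, ‖u l‖ ≤ τ
  have hBo : ∀ τ u, u ∈ Bo τ ↔ u ∈ K ∧ (∀ a, ‖pr (Z a) u‖ ≤ τ) ∧ ∀ l ∈ L, ‖u l‖ ≤ τ := fun τ u => by
    simp only [Bo, Finset.mem_filter, Set.Finite.mem_toFinset, SetLike.mem_coe]
  have hB0 : ∀ τ, 0 ≤ τ → (0 : Fin n → T1) ∈ Bo τ := fun τ h =>
    (hBo _ _).2 ⟨K.zero_mem, fun a => by simpa [pr_zero_right], fun l _ => by simpa⟩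
  set r := τ0 / M with hr
  have hr0 : 0 < r := by positivity
  obtain ⟨i, hi, hdb⟩ := F1.chain (fun i => (Bo (τ0 + i * r)).card) M
    (Finset.card_pos.2 ⟨0, hB0 _ (by positivity)⟩) (lt_of_le_of_lt (by
      rw [← SetLike.coe_sort_coe, Nat.card_coe_set_eq, Set.ncard_eq_toFinset_card _ hKf]
      exact Finset.card_filter_le _ _) hKM)
  set τ := τ0 + i * r with hτ
  have hτ2 : τ ≤ 2 * τ0 := by
    have h1 : (i : ℝ) * r ≤ M * r := by gcongr
    rw [hr, mul_div_cancel₀ _ hM'.ne'] at h1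
    linarith
  have hτp : 0 ≤ τ := by positivity
  have hdb' : (Bo (τ + r)).card ≤ 2 * (Bo τ).card := by
    convert hdb using 3
    push_cast; ring
  have hτs : r / (N : ℝ) ^ 3 = τ0 / (M * (N : ℝ) ^ 3) := by rw [hr, div_div]
  have hc1 := F1.cells G1 (Bo (r / (N : ℝ) ^ 3)) L (by positivity) fun u hu u' hu' h =>
    (hBo _ _).2 ⟨K.sub_mem (hG1 u hu) (hG1 u' hu'), hτs ▸ hZ u hu u' hu', h⟩
  have hL : L.card ≤ b * s := Finset.card_biUnion_le.trans (by
    simpa using Finset.sum_le_card_nsmul Finset.univ (fun a => (I a).card) s fun a _ => hI a)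
  have hc2 : Real.exp (c * Lg n) * Rr ≤ (Bo (r / (N : ℝ) ^ 3)).card := by
    rw [hτs, one_div_div] at hc1
    rw [hτs]
    refine le_of_mul_le_mul_right (hcard.trans (hc1.trans (mul_le_mul_of_nonneg_left
      (pow_le_pow_right₀ (le_add_of_nonneg_left (by positivity)) hL) (Nat.cast_nonneg _))))
      (by positivity)
  obtain ⟨a, ha⟩ := F1.blocks (θ := θ) hp0 hp1 hn blk (Bo (r / (N : ℝ) ^ 3)) hτ' h24
    fun D hD1 hDN A y0 hA => by
      have hf : ({u | u ∈ Td (Mx ω) ∧ D • u = 0} : Set (Fin n → T1)).Finite :=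
        hTf.subset fun u hu => hu.1
      have h1 := hR D hD1 hDN
      rw [Set.ncard_eq_toFinset_card _ hf] at h1
      have h2 : 0 < hf.toFinset.card := Finset.card_pos.2 ⟨0, by simp⟩
      have h3 := Finset.card_le_mul_card_image (f := fun u => D • u) (Bo (r / (N : ℝ) ^ 3))
        hf.toFinset.card fun x _ => F1.fib_le _ _ fun u hu u' hu' => by
          obtain ⟨hu, e⟩ := Finset.mem_filter.1 hu
          obtain ⟨hu', e'⟩ := Finset.mem_filter.1 hu'
          exact hf.mem_toFinset.2 ⟨hK (K.sub_mem ((hBo _ _).1 hu).1 ((hBo _ _).1 hu').1),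
            by rw [smul_sub, e, e', sub_self]⟩
      refine hL3 ((Bo (r / (N : ℝ) ^ 3)).image fun u => D • u) (fun g hg => ?_) ?_ A y0
        fun x hx g hg => ?_
      · obtain ⟨u, hu, rfl⟩ := Finset.mem_image.1 hg
        exact hK (K.nsmul_mem ((hBo _ _).1 hu).1 D)
      · have h5 : (0 : ℝ) < Rr := lt_of_lt_of_le (by exact_mod_cast h2) h1
        refine le_of_mul_le_mul_right (hc2.trans ((Nat.cast_le.2 h3).trans ?_)) h5
        rw [Nat.cast_mul, mul_comm]
        exact mul_le_mul_of_nonneg_left h1 (Nat.cast_nonneg _)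
      · obtain ⟨u, hu, rfl⟩ := Finset.mem_image.1 hg
        exact hA x hx u hu
  have hk0 : k ≠ 0 := by
    rintro rfl
    have : (1 : ℝ) < 4 ^ n := one_lt_pow₀ (by norm_num) (by omega)
    rw [pow_zero, mul_one] at hk
    linarith
  obtain ⟨g, hg, hP⟩ := F1.samples (ι := (Fin n → Bool) × (Fin n → Bool)) (Bo τ) ⟨0, hB0 τ hτp⟩
    (fun y u => ‖prH (rs (blkJ blk a) (sv y.1 - sv y.2)) u‖ ≤ τ') hN hk0 (by
      convert hk using 2
      simp [← mul_pow])
  refine ⟨a, g, fun j => ?_, fun y0 => (Pr_mono hp0.le hp1.le fun y hy => ?_).trans (ha y0)⟩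
  · obtain ⟨h1, h2, h3⟩ := (hBo _ _).1 (hg j)
    exact ⟨hK h1, fun a' => (h2 a').trans hτ2, fun l hl =>
      (h3 l (Finset.mem_biUnion.2 ⟨a, Finset.mem_univ _, hl⟩)).trans hτ2⟩
  · obtain ⟨D, h1, h2, h3⟩ := hRat _ Bo (prH (rs (blkJ blk a) (sv y - sv y0))) N τ r τ' hN hτp hr0.le
      hτ' h4 hB0 (fun x x' u v hu hv => by
        obtain ⟨u1, u2, u3⟩ := (hBo _ _).1 hu
        obtain ⟨v1, v2, v3⟩ := (hBo _ _).1 hv
        refine (hBo _ _).2 ⟨K.add_mem u1 v1, fun a => ?_, fun l hl => ?_⟩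
        · rw [pr_add_right]; exact norm_add_le_of_le (u2 a) (v2 a)
        · exact norm_add_le_of_le (u3 l hl) (v3 l hl))
      (fun x x' h u hu => by
        obtain ⟨u1, u2, u3⟩ := (hBo _ _).1 hu
        exact (hBo _ _).2 ⟨u1, fun a => (u2 a).trans h, fun l hl => (u3 l hl).trans h⟩)
      hdb' (hP (y, y0) hy)
    exact ⟨D, Finset.mem_Icc.2 ⟨h1, h2⟩, h3⟩

end Crest.Agent.R152
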